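import Vale.Agent.P216.B633.T12

set_option linter.unusedSectionVars false

/-!
# P216, the equality case of inequality (*), with saturation

`propT12sat`: `B633.propT12` with the additional conclusion that the image of the global classes
is saturated: `W (e + 2) ⊓ range u ≤ u (W e)`.
-/

open Module LinearMap

namespace Vale.Agent.P216.Tight923

open Vale.Agent.P216.AS (USeq)
open Vale.Agent.P216.T695
open Vale.Agent.P216.B633

theorem propT12sat (k : Type) [Field k] (Hi Fi H F H' : ℕ → Type)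
    [∀ n, AddCommGroup (Hi n)] [∀ n, Module k (Hi n)]
    [∀ n, AddCommGroup (Fi n)] [∀ n, Module k (Fi n)]
    [∀ n, AddCommGroup (H n)] [∀ n, Module k (H n)]
    [∀ n, AddCommGroup (F n)] [∀ n, Module k (F n)]
    [∀ n, AddCommGroup (H' n)] [∀ n, Module k (H' n)]
    [∀ n, FiniteDimensional k (H n)] [∀ n, FiniteDimensional k (F n)]
    [∀ n, FiniteDimensional k (H' n)]
    (ui : ∀ n, Fi n →ₗ[k] Fi (n + 2)) (πi : ∀ n, Fi n →ₗ[k] Hi n)
    (G : USeq k F H) (L : Loc k F H' G.u)
    (rH : ∀ n, Hi n →ₗ[k] H n) (rF : ∀ n, Fi n →ₗ[k] F n) (rH' : ∀ n, Hi n →ₗ[k] H' n)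
    (hu : ∀ n x, rF (n + 2) (ui n x) = G.u n (rF n x))
    (hπ : ∀ n x, G.π n (rF n x) = rH n (πi n x))
    (hg : ∀ e j x, L.ℓ e j (rF e x) ∈ LinearMap.range (rH' j))
    (hfin : ∃ N, ∀ n ≥ N, Subsingleton (H n)) (hfin' : ∃ N, ∀ n ≥ N, Subsingleton (H' n))
    (q : ℕ) (hq : q < 2) (hsurj : ∀ n, n % 2 = q → Function.Surjective (πi n)) :
    Rinf k rH' q ≤ Rinf k rH q ∧ (Rinf k rH q ≤ Rinf k rH' q →
      (∀ e, e % 2 ≠ q → ∀ x, x ∈ Tight923.tor G.u e → x = 0) ∧
      (∀ e, e % 2 = q → Tight923.tor G.u e ≤ LinearMap.range (rF e)) ∧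
      (∀ e, e % 2 = q → LinearMap.range (rF (e + 2)) ⊓ LinearMap.range (G.u e) ≤
        (LinearMap.range (rF e)).map (G.u e))) := by
  obtain ⟨N₀, hN₀⟩ := hfin
  obtain ⟨N₀', hN₀'⟩ := hfin'
  obtain ⟨N₁, hN₁⟩ := L.inj
  obtain ⟨N₂, hN₂⟩ := L.surj
  let W : ∀ n, Submodule k (F n) := fun n => LinearMap.range (rF n)
  have hW : ∀ n, (W n).map (G.u n) ≤ W (n + 2) := by
    rintro n _ ⟨_, ⟨x, rfl⟩, rfl⟩
    exact ⟨ui n x, hu n x⟩
  have hWπ : ∀ n, n % 2 = q → (W n).map (G.π n) = LinearMap.range (rH n) := by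
    intro n hn
    apply le_antisymm
    · rintro _ ⟨_, ⟨x, rfl⟩, rfl⟩
      exact ⟨πi n x, (hπ n x).symm⟩
    · rintro _ ⟨y, rfl⟩
      obtain ⟨x, rfl⟩ := hsurj n hn y
      exact ⟨rF n x, ⟨x, rfl⟩, hπ n x⟩
  -- the basic identity for all large `m`
  have key : ∀ m, N₀ + N₀' + N₁ + N₂ ≤ m →
      Rinf k rH' q + ∑ i ∈ Finset.range (m + 1), kap G (q + 2 * i) +
        ∑ i ∈ Finset.range m,
        ((finrank k (W (q + 2 * i + 2) ⊓ LinearMap.range (G.u (q + 2 * i)) :
            Submodule k (F (q + 2 * i + 2))) -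
          finrank k ((W (q + 2 * i)).map (G.u (q + 2 * i)))) +
        (finrank k (LinearMap.ker (G.u (q + 2 * i))) -
          finrank k (W (q + 2 * i) ⊓ LinearMap.ker (G.u (q + 2 * i)) :
            Submodule k (F (q + 2 * i))))) ≤ Rinf k rH q := by
    intro m hm
    have e1 : Rinf k rH q = ∑ i ∈ Finset.range (m + 1),
        (finrank k (H (q + 2 * i)) - finrank k (LinearMap.range (rH (q + 2 * i)))) := by
      refine finsum_parity q hq
        (fun n => finrank k (H n) - finrank k (LinearMap.range (rH n))) N₀ (m + 1) ?_ (by omega)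
      intro n hn
      have := hN₀ n hn
      change finrank k (H n) - _ = 0
      rw [finrank_zero_of_subsingleton, Nat.zero_sub]
    have e2 : Rinf k rH' q = ∑ i ∈ Finset.range (m + 1),
        (finrank k (H' (q + 2 * i)) - finrank k (LinearMap.range (rH' (q + 2 * i)))) := by
      refine finsum_parity q hq
        (fun n => finrank k (H' n) - finrank k (LinearMap.range (rH' n))) N₀' (m + 1) ?_
        (by omega)
      intro n hn
      have := hN₀' n hn
      change finrank k (H' n) - _ = 0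
      rw [finrank_zero_of_subsingleton, Nat.zero_sub]
    have e3 := sum_tsub_add (m := m + 1) (a := fun i => finrank k (H (q + 2 * i)))
      (b := fun i => finrank k (LinearMap.range (rH (q + 2 * i))))
      fun n => Submodule.finrank_le _
    have e4 := sum_tsub_add (m := m + 1) (a := fun i => finrank k (H' (q + 2 * i)))
      (b := fun i => finrank k (LinearMap.range (rH' (q + 2 * i))))
      fun n => Submodule.finrank_le _
    have e5 := sum_h G q hq m
    have e6 := sum_a G q hq W hW m
    have e7 : ∑ i ∈ Finset.range (m + 1), finrank k ((W (q + 2 * i)).map (G.π (q + 2 * i))) =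
        ∑ i ∈ Finset.range (m + 1), finrank k (LinearMap.range (rH (q + 2 * i))) :=
      Finset.sum_congr rfl fun i _ => by rw [hWπ _ (by omega)]
    have e8 := finrank_loc L hq (m := m + 1) (e := q + 2 * m) hN₁ hN₂ hN₀' (by omega)
      (by omega) (by omega) (by omega)
    have e9 := finrank_W_le L (q := q) (m := m + 1) (e := q + 2 * m) (rF (q + 2 * m)) rH' hN₁ hN₀'
      (by omega) (by omega) (by omega) (fun j x => hg _ j x)
    have e10 : finrank k (W (q + 2 * m)) = finrank k (LinearMap.range (rF (q + 2 * m))) := rfl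
    rw [e1, e2]
    rw [e7, e10] at e6
    rw [e8] at e5
    beta_reduce at e3 e4
    omega
  refine ⟨?_, fun hle => ?_⟩
  · have := key _ le_rfl
    omega
  -- the equality case
  have hkap : ∀ i, kap G (q + 2 * i) = 0 := by
    intro i
    have h1 := key (N₀ + N₀' + N₁ + N₂ + i) (by omega)
    have h2 : ∑ j ∈ Finset.range (N₀ + N₀' + N₁ + N₂ + i + 1), kap G (q + 2 * j) = 0 := by omega
    exact (Finset.sum_eq_zero_iff.1 h2) i (Finset.mem_range.2 (by omega))
  have hβγ : ∀ i, finrank k (W (q + 2 * i + 2) ⊓ LinearMap.range (G.u (q + 2 * i)) :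
            Submodule k (F (q + 2 * i + 2))) ≤
          finrank k ((W (q + 2 * i)).map (G.u (q + 2 * i))) ∧
        finrank k (LinearMap.ker (G.u (q + 2 * i))) ≤
          finrank k (W (q + 2 * i) ⊓ LinearMap.ker (G.u (q + 2 * i)) :
            Submodule k (F (q + 2 * i))) := by
    intro i
    have h1 := key (N₀ + N₀' + N₁ + N₂ + i + 1) (by omega)
    have h2 : ∑ i ∈ Finset.range (N₀ + N₀' + N₁ + N₂ + i + 1),
        ((finrank k (W (q + 2 * i + 2) ⊓ LinearMap.range (G.u (q + 2 * i)) :
            Submodule k (F (q + 2 * i + 2))) -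
          finrank k ((W (q + 2 * i)).map (G.u (q + 2 * i)))) +
        (finrank k (LinearMap.ker (G.u (q + 2 * i))) -
          finrank k (W (q + 2 * i) ⊓ LinearMap.ker (G.u (q + 2 * i)) :
            Submodule k (F (q + 2 * i))))) = 0 := by omega
    have h3 := (Finset.sum_eq_zero_iff.1 h2) i (Finset.mem_range.2 (by omega))
    omega
  have hker0 : ∀ e, e % 2 ≠ q → ∀ x, G.u e x = 0 → x = 0 := by
    intro e he x hx
    have h1 : LinearMap.ker (G.u e) = ⊥ := by
      apply Submodule.finrank_eq_zero.1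
      rcases Nat.eq_zero_or_pos q with rfl | hq0
      · have h2 := hkap ((e + 1) / 2)
        rw [show 0 + 2 * ((e + 1) / 2) = e + 1 by omega] at h2
        exact h2
      · obtain rfl : q = 1 := by omega
        have h2 := hkap (e / 2)
        rw [show 1 + 2 * (e / 2) = e + 1 by omega] at h2
        exact h2
    have h2 : x ∈ LinearMap.ker (G.u e) := hx
    rw [h1] at h2
    exact h2
  have hkerW : ∀ e, e % 2 = q → LinearMap.ker (G.u e) ≤ W e := by
    intro e he
    have h1 := (hβγ (e / 2)).2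
    rw [show q + 2 * (e / 2) = e by omega] at h1
    have h2 := Submodule.eq_of_le_of_finrank_le (inf_le_right : W e ⊓ LinearMap.ker (G.u e) ≤ _) h1
    rw [← h2]
    exact inf_le_left
  have hsat : ∀ e, e % 2 = q → W (e + 2) ⊓ LinearMap.range (G.u e) ≤ (W e).map (G.u e) := by
    intro e he
    have h1 := (hβγ (e / 2)).1
    rw [show q + 2 * (e / 2) = e by omega] at h1
    have hle' : (W e).map (G.u e) ≤ W (e + 2) ⊓ LinearMap.range (G.u e) :=
      le_inf (hW _) (by
        rintro _ ⟨x, -, rfl⟩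
        exact ⟨x, rfl⟩)
    exact (Submodule.eq_of_le_of_finrank_le hle' h1).ge
  refine ⟨?_, ?_, hsat⟩
  · intro e he x hx
    obtain ⟨M, hM⟩ := mem_tor.1 hx
    clear hx
    induction M generalizing e with
    | zero => exact hM
    | succ M ih =>
      have h1 : G.u e x = 0 := ih (e + 2) (by omega) (G.u e x) hM
      exact hker0 e he x h1
  · intro e he x hx
    obtain ⟨M, hM⟩ := mem_tor.1 hx
    clear hx
    change x ∈ W e
    induction M generalizing e with
    | zero =>
      have : x = 0 := hM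
      rw [this]
      exact Submodule.zero_mem _
    | succ M ih =>
      have h1 : G.u e x ∈ W (e + 2) := ih (e + 2) (by omega) hM
      obtain ⟨w, hw, hw'⟩ := hsat e he ⟨h1, x, rfl⟩
      have h2 : x - w ∈ LinearMap.ker (G.u e) := by
        rw [LinearMap.mem_ker, map_sub, hw', sub_self]
      have h3 := (W e).add_mem (hkerW e he h2) hw
      rwa [sub_add_cancel] at h3

end Vale.Agent.P216.Tight923
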