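import Vale.Agent.P216.T695.EndB
import Vale.Agent.P216.B64.IfaceC
import Vale.Agent.P216.Tight923.T12sat
import Vale.Agent.P216.Tight923.EndgameP

set_option linter.unusedSectionVars false

/-!
# Theorem B of P216: the end of the algebraic argument, version C

The conditions on ranks and gaps only concern the degrees `e i`: in the equality case torsion is
born exactly in the degrees of the births.
-/

open Module Set

namespace Vale.Agent.P216.T695

open Vale.Agent.P216.AS (USeq chi Crit)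
open Vale.Agent.P216.Tight923
open Vale.Agent.P216.B633

/-! ### The window -/

namespace PSysC

variable {k : Type} [Field k] {p : ℕ} {crit : Set ℝ} {K : ℕ} {B0 B1 : ℝ}
  (S : PSysC k p crit K B0 B1)

/-- the pieces of the equality case that are used on the window -/
structure Eq (t : ℝ) : Prop where
  pos : 0 < t
  reg : t ∉ crit
  odd : ∀ e, e % 2 ≠ S.q → ∀ x, x ∈ tor (S.G t).u e → x = 0
  even : ∀ e, e % 2 = S.q → tor (S.G t).u e ≤ LinearMap.range (S.rF t e)
  sat : ∀ e, e % 2 = S.q → LinearMap.range (S.rF t (e + 2)) ⊓ LinearMap.range ((S.G t).u e) ≤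
    (LinearMap.range (S.rF t e)).map ((S.G t).u e)

variable {S}

theorem loc_inj {s t : ℝ} (hs : S.Eq s) (ht : S.Eq t) (hst : s ≤ t) (hp : 0 < p)
    (hc : ∀ x ∈ Icc (s / p) (t / p), x ∉ crit) {e : ℕ} {x : S.F t e}
    (hx : S.ρF s t hst e x ∈ tor (S.G s).u e) : x ∈ tor (S.G t).u e := by
  have hp' : (0 : ℝ) < p := by exact_mod_cast hp
  have h' : s / p ≤ t / p := by gcongr
  rw [mem_tor_iff (S.L s hs.pos hs.reg)] at hx
  rw [mem_tor_iff (S.L t ht.pos ht.reg)]
  intro j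
  have h1 := hx j
  rw [S.ℓ_ρ s t hs.pos hs.reg ht.pos ht.reg hst h'] at h1
  have h2 := (S.reg (s / p) (t / p) h' (div_pos hs.pos hp') hc j).1
  exact h2 (by rw [h1, map_zero])

theorem tor_onto {s t : ℝ} (hs : S.Eq s) (ht : S.Eq t) (hst : s ≤ t) (hp : 0 < p)
    (hc : ∀ x ∈ Icc (s / p) (t / p), x ∉ crit) {e : ℕ} (y : S.F s e)
    (hy : y ∈ tor (S.G s).u e) : ∃ x ∈ tor (S.G t).u e, S.ρF s t hst e x = y := by
  by_cases h : e % 2 = S.q
  · obtain ⟨f, rfl⟩ := hs.even e h hy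
    refine ⟨S.rF t e f, ?_, S.ρF_rF s t hst e f⟩
    apply loc_inj hs ht hst hp hc
    rw [S.ρF_rF]
    exact hy
  · refine ⟨0, Submodule.zero_mem _, ?_⟩
    rw [map_zero, hs.odd e h y hy]

/-- `Dd` does not change across at most one critical level -/
theorem Dd_step {s t : ℝ} (hs : S.Eq s) (ht : S.Eq t) (hst : s ≤ t) (hp : 0 < p)
    (hc : ∀ x ∈ Icc (s / p) (t / p), x ∉ crit) (h1 : (crit ∩ Ioo s t).Subsingleton) (n : ℕ) :
    (S.I t).Dd n = (S.I s).Dd n := by
  obtain ⟨T⟩ := S.rel s t hst hs.pos hs.reg ht.reg h1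
  have i1 := S.finH t ht.pos ht.reg
  have i2 := S.finH s hs.pos hs.reg
  have i3 := fin_F (S.G t)
  have i4 := fin_F (S.G s)
  -- the terms of the relative sequence: degree `0` is irrelevant, replace it by the range
  have i5 : ∀ n, FiniteDimensional k (T.R (n + 1)) := by
    intro n
    have h : Function.Exact (T.δ n) (T.j (n + 1)).rangeRestrict := by
      intro y
      rw [← T.ex3 n y]
      exact ⟨fun h => congrArg Subtype.val h, fun h => Subtype.ext h⟩
    exact Module.Finite.of_exact h (LinearMap.surjective_rangeRestrict _)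
  refine Dd_eq' (S.I t) (S.I s) S.two_ne T.rR T.rR2 T.j (S.ρF s t hst) T.δ T.hj
    (S.ρF_r s t hst) T.hδ (S.ρF_u s t hst) T.ex1 T.ex2 T.ex3 T.chi0 ?_ ?_ n
  · intro n x hx
    apply loc_inj hs ht hst hp hc
    rw [hx]
    exact Submodule.zero_mem _
  · intro n y hy
    exact tor_onto hs ht hst hp hc y hy

/-- `Dd` is constant on the window -/
theorem Dd_const (hf : ∀ t, (crit ∩ Iic t).Finite) (hp : 0 < p) {α β : ℝ}
    (hE : ∀ t ∈ Ioo α β, t ∉ crit → S.Eq t) (hc : ∀ x ∈ Ioo α β, x / p ∉ crit) {s t : ℝ}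
    (hs : s ∈ Ioo α β) (ht : t ∈ Ioo α β) (hst : s < t) (hs' : s ∉ crit) (ht' : t ∉ crit)
    (n : ℕ) : (S.I s).Dd n = (S.I t).Dd n := by
  have hp' : (0 : ℝ) < p := by exact_mod_cast hp
  refine chain hf (fun t => (S.I t).Dd n) ?_ s t hs ht hst hs' ht'
  intro s t hs ht hst hs' ht' h1
  refine (Dd_step (hE s hs hs') (hE t ht ht') hst.le hp ?_ h1 n).symm
  intro x hx hxc
  have h2 : x * p ∈ Ioo α β := by
    constructor
    · have := (div_le_iff₀ hp').1 hx.1
      linarith [hs.1]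
    · have := (le_div_iff₀ hp').1 hx.2
      linarith [ht.2]
  apply hc (x * p) h2
  rwa [mul_div_cancel_right₀ _ hp'.ne']

/-! ### The assembly -/

theorem rinf_le {t : ℝ} (ht : 0 < t) (ht' : t ∉ crit) : Rinf k (S.rH t) S.q ≤ K := by
  obtain ⟨N, hN⟩ := S.topH t ht ht'
  unfold Rinf
  rw [finsum_eq_sum_of_support_subset (s := Finset.range N)]
  · refine le_trans (Finset.sum_le_sum fun n _ => ?_) (S.bars t ht ht' N)
    split_ifs
    · exact le_rfl
    · exact Nat.zero_le _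
  · intro n hn
    rw [Finset.coe_range, mem_Iio]
    by_contra h
    apply hn
    have := hN n (not_lt.1 h)
    have h1 : finrank k (S.H t n) = 0 := finrank_zero_of_subsingleton
    simp only [h1, Nat.zero_sub, ite_self]

theorem rinf_const {s t : ℝ} (hs : 0 < s) (hst : s ≤ t) (h : ∀ x ∈ Icc s t, x ∉ crit) :
    Rinf k (S.rH s) S.q = Rinf k (S.rH t) S.q := by
  unfold Rinf
  congr 1
  ext n
  have hb := S.reg s t hst hs h n
  have h1 : finrank k (S.H t n) = finrank k (S.H s n) :=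
    LinearEquiv.finrank_eq (LinearEquiv.ofBijective _ hb)
  have h2 : LinearMap.range (S.rH s n) = (LinearMap.range (S.rH t n)).map (S.ρH s t hst n) := by
    ext y
    constructor
    · rintro ⟨x, rfl⟩
      exact ⟨_, ⟨x, rfl⟩, S.ρH_rH s t hst n x⟩
    · rintro ⟨_, ⟨x, rfl⟩, rfl⟩
      exact ⟨x, (S.ρH_rH s t hst n x).symm⟩
  have h3 : finrank k (LinearMap.range (S.rH s n)) = finrank k (LinearMap.range (S.rH t n)) := by
    rw [h2]
    exact (LinearEquiv.finrank_eq (Submodule.equivMapOfInjective _ hb.1 _)).symm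
  rw [h1, h3]

/-! ### The traces -/

theorem torE_le {t : ℝ} (ht : S.Eq t) {n : ℕ} (hn : n % 2 = S.q) :
    torE (S.G t) n ≤ LinearMap.range (S.rH t n) := by
  rintro _ ⟨y, hy, rfl⟩
  obtain ⟨f, rfl⟩ := ht.even _ hn hy
  rw [S.π_rF]
  exact ⟨_, rfl⟩

theorem torE_odd {t : ℝ} (ht : S.Eq t) {n : ℕ} (hn : n % 2 ≠ S.q) :
    torE (S.G t) n = ⊥ := by
  have h1 : tor (S.G t).u n = ⊥ := by
    rw [eq_bot_iff]
    intro x hx
    exact ht.odd n hn x hx
  rw [torE, h1, Submodule.map_bot]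

theorem chi_n {t : ℝ} (ht : S.Eq t) {n : ℕ} (hn : 2 ≤ n) (hq : (n + 1) % 2 = S.q) :
    chi ((S.I t).rE n) = (S.I t).Dd n + (S.I t).Dd (n - 2) +
      chiOn ((S.I t).rE (n + 1)) (torE (S.G t) (n + 1)) := by
  have i1 := S.finH t ht.pos ht.reg
  have i3 := fin_F (S.G t)
  have h0 : torE (S.G t) n = ⊥ := torE_odd ht (by have := S.q_lt; omega)
  have h2 := PSys.chi_E_eq' (S.I t) S.two_ne n hn
  rw [h0, chiOn_bot, add_zero] at h2
  exact h2

theorem rH_zero {s t : ℝ} (hst : s ≤ t) {n : ℕ} (h : S.rH t n = 0) : S.rH s n = 0 := by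
  ext x
  rw [← S.ρH_rH s t hst, h]
  simp

/-- torsion born between `s` and `t` in degree `n + 1` forces cohomology in degree `n` -/
theorem finrank_ge (hf : ∀ t, (crit ∩ Iic t).Finite) (hp : 0 < p) {α β : ℝ}
    (hE : ∀ t ∈ Ioo α β, t ∉ crit → S.Eq t) (hc : ∀ x ∈ Ioo α β, x / p ∉ crit) {s t : ℝ}
    (hs : s ∈ Ioo α β) (ht : t ∈ Ioo α β) (hst : s < t) (hs' : s ∉ crit) (ht' : t ∉ crit)
    {n : ℕ} (hn : 2 ≤ n) (hq : (n + 1) % 2 = S.q) (h0 : torE (S.G s) (n + 1) = ⊥)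
    (h1 : torE (S.G t) (n + 1) ≠ ⊥)
    (hrk : finrank k (LinearMap.range (S.rH t (n + 1))) ≤ 1) :
    1 ≤ finrank k (S.H s n) + finrank k (S.H t n) := by
  have es := hE s hs hs'
  have et := hE t ht ht'
  have a1 := chi_n es hn hq
  have a2 := chi_n et hn hq
  rw [h0, chiOn_bot] at a1
  have a3 := Dd_const hf hp hE hc hs ht hst hs' ht' n
  have a4 := Dd_const hf hp hE hc hs ht hst hs' ht' (n - 2)
  have i1 := S.finH t et.pos et.reg
  have i2 := S.finH s es.pos es.reg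
  have h2 : finrank k (torE (S.G t) (n + 1)) = 1 := by
    have h3 := (Submodule.finrank_mono (torE_le et hq)).trans hrk
    have h4 : finrank k (torE (S.G t) (n + 1)) ≠ 0 := fun h => h1 (Submodule.finrank_eq_zero.1 h)
    omega
  have h5 : chiOn ((S.I t).rE (n + 1)) (torE (S.G t) (n + 1)) = 1 ∨
      chiOn ((S.I t).rE (n + 1)) (torE (S.G t) (n + 1)) = -1 := by
    refine PSysB.chiOn_line S.two_ne ((S.I t).rE2 (n + 1)) ?_ h2
    rintro _ ⟨y, hy, rfl⟩
    exact ⟨(S.I t).rF (n + 1) y, (S.I t).tor_mem (n + 1) hy, ((S.I t).hπ (n + 1) y).symm⟩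
  by_contra hcon
  have b1 : finrank k (S.H s n) = 0 := by omega
  have b2 : finrank k (S.H t n) = 0 := by omega
  have : Subsingleton (S.H s n) := finrank_zero_iff.1 b1
  have : Subsingleton (S.H t n) := finrank_zero_iff.1 b2
  rw [chi_subsingleton] at a1 a2
  omega

/-- the cohomology in degrees without global classes is bounded by the finite bars -/
theorem sum_finrank_le {t : ℝ} (ht : 0 < t) (ht' : t ∉ crit) (A : Finset ℕ)
    (hA : ∀ n ∈ A, S.rH t n = 0) : ∑ n ∈ A, finrank k (S.H t n) ≤ K := by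
  classical
  have h1 : ∀ n ∈ A, finrank k (S.H t n) =
      finrank k (S.H t n) - finrank k (LinearMap.range (S.rH t n)) := by
    intro n hn
    rw [hA n hn, LinearMap.range_zero, finrank_bot, Nat.sub_zero]
  obtain ⟨m, hm⟩ : ∃ m, ∀ i ∈ A, i < m := by
    obtain ⟨m, hm⟩ := A.bddAbove
    exact ⟨m + 1, fun i hi => Nat.lt_succ_of_le (hm hi)⟩
  calc ∑ n ∈ A, finrank k (S.H t n)
      = ∑ n ∈ A, (finrank k (S.H t n) - finrank k (LinearMap.range (S.rH t n))) :=
        Finset.sum_congr rfl h1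
    _ ≤ ∑ n ∈ Finset.range m, (finrank k (S.H t n) - finrank k (LinearMap.range (S.rH t n))) := by
        apply Finset.sum_le_sum_of_subset
        intro n hn
        exact Finset.mem_range.2 (hm n hn)
    _ ≤ K := S.bars t ht ht' m

/-- the ranks of the global classes increase -/
theorem rk_mono {s t : ℝ} (hst : s ≤ t) (ht : 0 < t) (ht' : t ∉ crit) (n : ℕ) :
    finrank k (LinearMap.range (S.rH s n)) ≤ finrank k (LinearMap.range (S.rH t n)) := by
  have i1 := S.finH t ht ht' n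
  have h2 : LinearMap.range (S.rH s n) = (LinearMap.range (S.rH t n)).map (S.ρH s t hst n) := by
    ext y
    constructor
    · rintro ⟨x, rfl⟩
      exact ⟨_, ⟨x, rfl⟩, S.ρH_rH s t hst n x⟩
    · rintro ⟨_, ⟨x, rfl⟩, rfl⟩
      exact ⟨x, (S.ρH_rH s t hst n x).symm⟩
  rw [h2]
  exact Submodule.finrank_map_le _ _

theorem rk_eq {s t : ℝ} (hst : s ≤ t) (hb : ∀ n, Function.Bijective (S.ρH s t hst n)) (n : ℕ) :
    finrank k (LinearMap.range (S.rH s n)) = finrank k (LinearMap.range (S.rH t n)) := by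
  have h2 : LinearMap.range (S.rH s n) = (LinearMap.range (S.rH t n)).map (S.ρH s t hst n) := by
    ext y
    constructor
    · rintro ⟨x, rfl⟩
      exact ⟨_, ⟨x, rfl⟩, S.ρH_rH s t hst n x⟩
    · rintro ⟨_, ⟨x, rfl⟩, rfl⟩
      exact ⟨x, (S.ρH_rH s t hst n x).symm⟩
  rw [h2]
  exact (LinearEquiv.finrank_eq (Submodule.equivMapOfInjective _ (hb n).1 _)).symm

/-- **torsion is born exactly in the degrees of the births** -/
theorem torE_born {s t : ℝ} (es : S.Eq s) (et : S.Eq t) (hst : s ≤ t) (hp : 0 < p)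
    (hc : ∀ x ∈ Icc (s / p) (t / p), x ∉ crit) {n : ℕ} (hn : 2 ≤ n) (hq : n % 2 = S.q)
    (h0 : S.rH s n = 0) (h1 : S.rH t n ≠ 0) :
    torE (S.G s) n = ⊥ ∧ torE (S.G t) n ≠ ⊥ := by
  constructor
  · rw [eq_bot_iff]
    refine (torE_le es hq).trans ?_
    rw [h0, LinearMap.range_zero]
  · obtain ⟨x, hx⟩ : ∃ x, S.rH t n x ≠ 0 := by
      by_contra hcon
      push Not at hcon
      exact h1 (LinearMap.ext fun x => by rw [hcon x, LinearMap.zero_apply])
    obtain ⟨f, rfl⟩ := S.lift n hq x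
    obtain ⟨j, rfl⟩ : ∃ j, n = j + 2 := ⟨n - 2, by omega⟩
    have hj : j % 2 = S.q := by omega
    -- `rF s f` lies in the image of `u`
    have e1 : (S.G s).π (j + 2) (S.rF s (j + 2) f) = 0 := by
      rw [S.π_rF, h0, LinearMap.zero_apply]
    obtain ⟨g, hg⟩ := ((S.G s).ex3 j (S.rF s (j + 2) f)).1 e1
    obtain ⟨_, ⟨f', rfl⟩, hf'⟩ := es.sat j hj ⟨⟨f, rfl⟩, ⟨g, hg⟩⟩
    -- the corrected class
    have e2 : S.rF s (j + 2) (f - S.ui j f') = 0 := by
      rw [map_sub, S.rF_u, hf', sub_self]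
    have e3 : S.rF t (j + 2) (f - S.ui j f') ∈ tor (S.G t).u (j + 2) := by
      apply loc_inj es et hst hp hc
      rw [S.ρF_rF, e2]
      exact Submodule.zero_mem _
    have e4 : (S.G t).π (j + 2) (S.rF t (j + 2) (f - S.ui j f')) =
        S.rH t (j + 2) (S.πi (j + 2) f) := by
      rw [map_sub, map_sub, S.rF_u, S.π_rF]
      have : (S.G t).π (j + 2) ((S.G t).u j (S.rF t j f')) = 0 :=
        ((S.G t).ex3 j _).2 ⟨_, rfl⟩
      rw [this, sub_zero]
    intro h
    apply hx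
    have e5 : S.rH t (j + 2) (S.πi (j + 2) f) ∈ torE (S.G t) (j + 2) := ⟨_, e3, e4⟩
    rw [h] at e5
    exact (Submodule.mem_bot k).1 e5

/-- **the count**: the number of the degrees `e i` in which a class is born between `s` and
`t` is at most `2 K` -/
theorem births_le (hf : ∀ t, (crit ∩ Iic t).Finite) (hp : 0 < p)
    {α β : ℝ} (hE : ∀ t ∈ Ioo α β, t ∉ crit → S.Eq t) (hc : ∀ x ∈ Ioo α β, x / p ∉ crit) {s t : ℝ}
    (hs : s ∈ Ioo α β) (ht : t ∈ Ioo α β) (hst : s < t) (hs' : s ∉ crit) (ht' : t ∉ crit)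
    (A : Finset ℕ) (hAs : ∀ i ∈ A, S.rH s (S.e i) = 0)
    (hAt : ∀ i ∈ A, S.rH t (S.e i) ≠ 0) : A.card ≤ 2 * K := by
  classical
  have hp' : (0 : ℝ) < p := by exact_mod_cast hp
  have es := hE s hs hs'
  have et := hE t ht ht'
  have hcI : ∀ x ∈ Icc (s / p) (t / p), x ∉ crit := by
    intro x hx hxc
    have h2 : x * p ∈ Ioo α β := by
      constructor
      · have := (div_le_iff₀ hp').1 hx.1
        linarith [hs.1]
      · have := (le_div_iff₀ hp').1 hx.2
        linarith [ht.2]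
    apply hc (x * p) h2
    rwa [mul_div_cancel_right₀ _ hp'.ne']
  have h3 : ∀ i, S.e i - 1 + 1 = S.e i := fun i => by
    have := S.e_ge i
    omega
  have hone : ∀ i ∈ A, 1 ≤ finrank k (S.H s (S.e i - 1)) + finrank k (S.H t (S.e i - 1)) := by
    intro i hi
    have hge := S.e_ge i
    obtain ⟨h1, h2⟩ := torE_born es et hst.le hp hcI (n := S.e i) (by omega) (S.e_par i)
      (hAs i hi) (hAt i hi)
    refine finrank_ge hf hp hE hc hs ht hst hs' ht' (n := S.e i - 1) (by omega) ?_ ?_ ?_ ?_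
    · rw [h3]
      exact S.e_par i
    · rw [h3]
      exact h1
    · rw [h3]
      exact h2
    · rw [h3]
      exact S.rk i t et.pos et.reg
  have hzero : ∀ i ∈ A, S.rH t (S.e i - 1) = 0 := fun i hi =>
    S.gap i t et.pos et.reg (hAt i hi)
  have hinj : Set.InjOn (fun i => S.e i - 1) (A : Set ℕ) := by
    intro a ha b hb h
    have h1 := h3 a
    have h2 := h3 b
    have h4 : S.e a - 1 = S.e b - 1 := h
    exact S.e_mono.injective (by omega)
  have d1 := sum_finrank_le (S := S) et.pos et.reg (A.image (fun i => S.e i - 1)) (by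
    intro n hn
    obtain ⟨i, hi, rfl⟩ := Finset.mem_image.1 hn
    exact hzero i hi)
  have d2 := sum_finrank_le (S := S) es.pos es.reg (A.image (fun i => S.e i - 1)) (by
    intro n hn
    obtain ⟨i, hi, rfl⟩ := Finset.mem_image.1 hn
    exact rH_zero hst.le (hzero i hi))
  rw [Finset.sum_image hinj] at d1 d2
  have d3 : A.card ≤ ∑ i ∈ A, (finrank k (S.H s (S.e i - 1)) +
      finrank k (S.H t (S.e i - 1))) := by
    rw [Finset.card_eq_sum_ones]
    exact Finset.sum_le_sum hone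
  rw [Finset.sum_add_distrib] at d3
  omega

/-- **T5**: a window of equality is short -/
theorem window_short (hf : ∀ t, (crit ∩ Iic t).Finite) (hp : 0 < p) {α β : ℝ} (hα : 0 < α)
    (hE : ∀ t ∈ Ioo α β, t ∉ crit → S.Eq t) (hc : ∀ x ∈ Ioo α β, x / p ∉ crit) :
    β - α ≤ max B0 0 + 3 + (2 * K + 3) * (max B1 0 + 1) := by
  by_contra hcon
  push Not at hcon
  set b := max B1 0 with hb
  have hb0 : 0 ≤ b := le_max_right _ _
  have hb1 : B1 ≤ b := le_max_left _ _
  set a0 := max B0 0 with ha0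
  have ha00 : 0 ≤ a0 := le_max_right _ _
  have ha01 : B0 ≤ a0 := le_max_left _ _
  have hK0 : (0 : ℝ) ≤ K := Nat.cast_nonneg K
  have hpos : 0 ≤ (2 * (K : ℝ) + 3) * (b + 1) := by positivity
  -- the starting point
  obtain ⟨t1, ht1, ht1c⟩ := exists_reg hf (show α + a0 < α + a0 + 1 by linarith)
  have ht10 : 0 < t1 := by linarith [ht1.1]
  have ht1J : t1 ∈ Ioo α β := ⟨by linarith [ht1.1], by linarith [ht1.2]⟩
  -- the end point
  obtain ⟨t2, ht2, ht2c⟩ := exists_reg hf (show β - 1 < β by linarith)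
  have ht2J : t2 ∈ Ioo α β := ⟨by linarith [ht2.1], ht2.2⟩
  have ht20 : 0 < t2 := by linarith [ht2J.1]
  -- the last class alive at `t1`
  obtain ⟨N, hN⟩ := S.topH t1 ht10 ht1c
  have hdead : ∀ i, N ≤ i → S.rH t1 (S.e i) = 0 := by
    intro i hi
    have h1 : N ≤ S.e i := hi.trans (S.e_mono.id_le i)
    have := hN _ h1
    ext x
    exact Subsingleton.elim _ _
  classical
  let P : ℕ → Prop := fun i => S.rH t1 (S.e i) ≠ 0
  have hP0 : P 0 := S.birth0 t1 (by linarith [ht1.1]) ht1c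
  set i0 := Nat.findGreatest P N with hi0
  have hPi0 : P i0 := Nat.findGreatest_spec (Nat.zero_le N) hP0
  have hafter : ∀ i, i0 < i → S.rH t1 (S.e i) = 0 := by
    intro i hi
    by_cases h : i ≤ N
    · by_contra h2
      exact Nat.findGreatest_is_greatest hi h h2
    · exact hdead i (by omega)
  -- the births
  have hstep : ∀ j : ℕ, ∃ s, t1 ≤ s ∧ s ≤ t1 + j * (b + 1) ∧ s ∉ crit ∧
      S.rH s (S.e (i0 + j)) ≠ 0 := by
    intro j
    induction j with
    | zero => exact ⟨t1, le_rfl, by simp, ht1c, hPi0⟩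
    | succ j ih =>
      obtain ⟨s, hs1, hs2, hs3, hs4⟩ := ih
      obtain ⟨s', hs', hs'c⟩ := exists_reg hf (show s + b < s + b + 1 by linarith)
      refine ⟨s', by linarith [hs'.1], ?_, hs'c, ?_⟩
      · push_cast
        linarith [hs'.2]
      · exact S.birth (i0 + j) s s' (by linarith) hs3 hs'c (by linarith [hs'.1]) hs4
  have hlive : ∀ j : ℕ, j < 2 * K + 3 → S.rH t2 (S.e (i0 + j + 1)) ≠ 0 := by
    intro j hj
    obtain ⟨s, hs1, hs2, hs3, hs4⟩ := hstep j
    refine S.birth (i0 + j) s t2 (by linarith) hs3 ht2c ?_ hs4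
    have h1 : (j : ℝ) ≤ 2 * K + 2 := by
      have : j ≤ 2 * K + 2 := by omega
      exact_mod_cast this
    have h2 : (j : ℝ) * (b + 1) ≤ (2 * K + 2) * (b + 1) :=
      mul_le_mul_of_nonneg_right h1 (by linarith)
    have h3 : (2 * (K : ℝ) + 3) * (b + 1) = (2 * K + 2) * (b + 1) + (b + 1) := by ring
    linarith [ht1.2, ht2.1]
  have ht12 : t1 < t2 := by linarith [ht1.2, ht2.1]
  have hinj : Function.Injective fun j => i0 + j + 1 := by
    intro a b h
    have h' : i0 + a + 1 = i0 + b + 1 := h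
    omega
  have h1 := births_le hf hp hE hc ht1J ht2J ht12 ht1c ht2c
    ((Finset.range (2 * K + 3)).image fun j => i0 + j + 1) (by
      intro n hn
      obtain ⟨j, hj, rfl⟩ := Finset.mem_image.1 hn
      exact hafter _ (by omega)) (by
      intro n hn
      obtain ⟨j, hj, rfl⟩ := Finset.mem_image.1 hn
      exact hlive j (Finset.mem_range.1 hj))
  rw [Finset.card_image_of_injective _ hinj, Finset.card_range] at h1
  omega

/-- (*) at the level `t`, and the equality case -/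
theorem star {ι : Type} {ℓ : ι → ℝ} {k : Type} [Field k] {p : ℕ}
    (hp : 0 < p) {K : ℕ} {B0 B1 : ℝ} (S : PSysC k p (Crit ℓ) K B0 B1) {t : ℝ} (ht : 0 < t)
    (ht' : t ∉ Crit ℓ) : Rinf k (S.rH (t / p)) S.q ≤ Rinf k (S.rH t) S.q ∧
    (Rinf k (S.rH t) S.q ≤ Rinf k (S.rH (t / p)) S.q → S.Eq t) := by
  have hp' : (0 : ℝ) < p := by exact_mod_cast hp
  have h0 : 0 < t / p := div_pos ht hp'
  have h1 : t / p ∉ Crit ℓ := by
    intro h
    apply ht'
    have := AS.mul_mem_crit hp h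
    rwa [mul_div_cancel₀ t hp'.ne'] at this
  have i1 := S.finH t ht ht'
  have i2 := S.finH (t / p) h0 h1
  have i3 := fin_F (S.G t)
  obtain ⟨h2, h3⟩ := propT12sat k S.Hi S.Fi (S.H t) (S.F t) (S.H (t / p)) S.ui S.πi (S.G t)
    (S.L t ht ht') (S.rH t) (S.rF t) (S.rH (t / p)) (S.rF_u t) (S.π_rF t) (S.glob t ht ht')
    (S.topH t ht ht') (S.topH (t / p) h0 h1) S.q S.q_lt S.lift
  exact ⟨h2, fun h => ⟨ht, ht', (h3 h).1, (h3 h).2.1, (h3 h).2.2⟩⟩

end PSysC

/-- **The algebraic endgame**, version C, for the primes `> P0`. -/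
theorem tightEndP {ι : Type} [Finite ι] (ℓ : ι → ℝ) (hℓ : ∀ i, 0 < ℓ i) (K : ℕ)
    (B0 B1 : ℝ) (P0 : ℕ) (hS : ∀ p : ℕ, p.Prime → 2 < p → P0 < p → ∃ (k : Type) (_ : Field k),
      Nonempty (PSysC k p (Crit ℓ) K B0 B1)) : False := by
  have hf := crit_finite ℓ hℓ
  have key : ∀ p : ℕ, ∃ R : ℝ → ℕ, p.Prime → 2 < p → P0 < p →
      (∀ s : ℝ, 0 < s → s ∉ Crit ℓ → R s ≤ K) ∧
      (∀ s t : ℝ, 0 < s → s ≤ t → (∀ x ∈ Icc s t, x ∉ Crit ℓ) → R s = R t) ∧
      (∀ s : ℝ, 0 < s → s ∉ Crit ℓ → p * s ∉ Crit ℓ → R s ≤ R (p * s)) ∧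
      (∀ α β : ℝ, 0 < α → α < β → (∀ x ∈ Ioo α β, x / p ∉ Crit ℓ) →
        (∀ s ∈ Ioo α β, s ∉ Crit ℓ → R (s / p) = R s) →
        β - α ≤ max B0 0 + 3 + (2 * K + 3) * (max B1 0 + 1)) := by
    intro p
    by_cases hp : p.Prime ∧ 2 < p ∧ P0 < p
    · obtain ⟨k, fk, ⟨S⟩⟩ := hS p hp.1 hp.2.1 hp.2.2
      have hp0 : 0 < p := hp.1.pos
      have hp' : (0 : ℝ) < p := by exact_mod_cast hp0
      refine ⟨fun t => Rinf k (S.rH t) S.q, fun _ _ _ => ⟨?_, ?_, ?_, ?_⟩⟩
      · intro s hs hs'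
        exact PSysC.rinf_le hs hs'
      · intro s t hs hst h
        exact PSysC.rinf_const hs hst h
      · intro s hs hs' hps
        have h1 := (S.star hp0 (mul_pos hp' hs) hps).1
        rw [mul_div_cancel_left₀ s hp'.ne'] at h1
        exact h1
      · intro α β hα hαβ h1 h2
        refine PSysC.window_short (S := S) hf hp0 hα ?_ h1
        intro t ht ht'
        exact (S.star hp0 (hα.trans ht.1) ht').2 (h2 t ht ht').ge
    · exact ⟨fun _ => 0, fun h1 h2 h3 => absurd ⟨h1, h2, h3⟩ hp⟩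
  choose R hR using key
  exact Tight923.endgameP P0 ℓ hℓ R K (max B0 0 + 3 + (2 * K + 3) * (max B1 0 + 1))
    (fun p h1 h2 h3 => (hR p h1 h2 h3).1) (fun p h1 h2 h3 => (hR p h1 h2 h3).2.1)
    (fun p h1 h2 h3 => (hR p h1 h2 h3).2.2.1) (fun p h1 h2 h3 => (hR p h1 h2 h3).2.2.2)

/-- **The algebraic endgame**, version C. -/
theorem tightEndC : TightEndC := by
  intro ι _ ℓ hℓ K B0 B1 hS
  exact tightEndP ℓ hℓ K B0 B1 0 fun p h1 h2 _ => hS p h1 h2

end Vale.Agent.P216.T695
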