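import Vale.Agent.P216.AS.Alg707

/-!
# P216, Theorem B, [TIGHT] part T3: traces

`chiOn r S` = integer trace of the involution `r` on the invariant subspace `S`.
`tor S.u e` = the `u`-torsion in `F e`.  `Dd` = trace of the free part minus trace of the torsion.
-/

open Module LinearMap

namespace Vale.Agent.P216.Tight923

open Vale.Agent.P216.AS

section One

variable {k : Type*} [Field k] {A B : Type*} [AddCommGroup A] [Module k A]
  [AddCommGroup B] [Module k B]

/-- integer trace of the involution `r` on the invariant subspace `S` -/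
noncomputable def chiOn (r : A →ₗ[k] A) (S : Submodule k A) : ℤ :=
  (finrank k (S ⊓ eig r (1 : k) : Submodule k A) : ℤ) -
    (finrank k (S ⊓ eig r (-1 : k) : Submodule k A) : ℤ)

theorem chiOn_top (r : A →ₗ[k] A) : chiOn r ⊤ = chi r := by
  rw [chiOn, chi, top_inf_eq, top_inf_eq]

theorem chiOn_bot (r : A →ₗ[k] A) : chiOn r ⊥ = 0 := by
  rw [chiOn, bot_inf_eq, bot_inf_eq, sub_self]

/-- rank and nullity for the image of a submodule -/
theorem finrank_map_add [FiniteDimensional k A] (f : A →ₗ[k] B) (P : Submodule k A) :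
    finrank k (P.map f) + finrank k (P ⊓ LinearMap.ker f : Submodule k A) = finrank k P := by
  have h := LinearMap.finrank_range_add_finrank_ker (f.comp P.subtype)
  rw [LinearMap.range_comp, Submodule.range_subtype] at h
  rw [← h]
  congr 1
  have e : (P ⊓ LinearMap.ker f : Submodule k A) =
      (LinearMap.ker (f.comp P.subtype)).map P.subtype := by
    ext x
    constructor
    · rintro ⟨h1, h2⟩
      exact ⟨⟨x, h1⟩, h2, rfl⟩
    · rintro ⟨⟨y, hy⟩, h2, rfl⟩
      exact ⟨hy, h2⟩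
  rw [e]
  exact LinearEquiv.finrank_eq
    (Submodule.equivMapOfInjective _ (Submodule.injective_subtype P) _).symm

theorem map_eig (h2 : (2 : k) ≠ 0) {r : A →ₗ[k] A} {t : B →ₗ[k] B} {ε η : k} (hε : ε * ε = 1)
    (hη : η * η = 1) {S : Submodule k A} (hS : ∀ x ∈ S, r x ∈ S) (hr : ∀ x, r (r x) = x)
    (f : A →ₗ[k] B) (hf : ∀ x, t (f x) = ε • f (r x)) :
    (S ⊓ eig r η : Submodule k A).map f = S.map f ⊓ eig t (ε * η) := by
  ext y
  constructor
  · rintro ⟨x, ⟨h1, h3⟩, rfl⟩
    refine ⟨⟨x, h1, rfl⟩, ?_⟩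
    have h3' : r x = η • x := mem_eig.1 h3
    show f x ∈ eig t (ε * η)
    rw [mem_eig, hf, h3', map_smul, smul_smul]
  · rintro ⟨⟨x, h1, rfl⟩, h3⟩
    have h3' : t (f x) = (ε * η) • f x := mem_eig.1 h3
    have h4 : f (r x) = η • f x := by
      have h5 : ε • (ε • f (r x)) = ε • ((ε * η) • f x) := by rw [← hf, h3']
      rw [smul_smul, smul_smul, ← mul_assoc, hε, one_mul, one_smul] at h5
      exact h5
    refine ⟨(2 : k)⁻¹ • (x + η • r x), ⟨?_, ?_⟩, ?_⟩
    · exact S.smul_mem _ (S.add_mem h1 (S.smul_mem _ (hS x h1)))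
    · show _ ∈ eig r η
      rw [mem_eig, map_smul, map_add, map_smul, hr, smul_comm]
      congr 1
      rw [smul_add, smul_smul, hη, one_smul]
      abel
    · rw [map_smul, map_add, map_smul, h4, smul_smul, hη, one_smul, ← two_smul k,
        smul_smul, inv_mul_cancel₀ h2, one_smul]

theorem finrank_map_eig [FiniteDimensional k A] (h2 : (2 : k) ≠ 0) {r : A →ₗ[k] A}
    {t : B →ₗ[k] B} {ε η : k} (hε : ε * ε = 1)
    (hη : η * η = 1) {S : Submodule k A} (hS : ∀ x ∈ S, r x ∈ S) (hr : ∀ x, r (r x) = x)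
    (f : A →ₗ[k] B) (hf : ∀ x, t (f x) = ε • f (r x)) :
    finrank k (S.map f ⊓ eig t (ε * η) : Submodule k B) +
      finrank k (S ⊓ LinearMap.ker f ⊓ eig r η : Submodule k A) =
      finrank k (S ⊓ eig r η : Submodule k A) := by
  rw [← map_eig h2 hε hη hS hr f hf, inf_right_comm]
  exact finrank_map_add f _

/-- `f` commutes with the involutions -/
theorem chiOn_map [FiniteDimensional k A] (h2 : (2 : k) ≠ 0) {r : A →ₗ[k] A}
    {t : B →ₗ[k] B} {S : Submodule k A} (hS : ∀ x ∈ S, r x ∈ S) (hr : ∀ x, r (r x) = x)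
    (f : A →ₗ[k] B) (hf : ∀ x, t (f x) = f (r x)) :
    chiOn t (S.map f) = chiOn r S - chiOn r (S ⊓ LinearMap.ker f) := by
  have e1 := finrank_map_eig h2 (ε := 1) (η := 1) (by simp) (by simp) hS hr f (by simpa using hf)
  have e2 := finrank_map_eig h2 (ε := 1) (η := -1) (by simp) (by simp) hS hr f
    (by simpa using hf)
  rw [one_mul] at e1 e2
  unfold chiOn
  omega

/-- `f` anticommutes with the involutions -/
theorem chiOn_map_neg [FiniteDimensional k A] (h2 : (2 : k) ≠ 0) {r : A →ₗ[k] A}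
    {t : B →ₗ[k] B} {S : Submodule k A} (hS : ∀ x ∈ S, r x ∈ S) (hr : ∀ x, r (r x) = x)
    (f : A →ₗ[k] B) (hf : ∀ x, t (f x) = - f (r x)) :
    chiOn t (S.map f) = chiOn r (S ⊓ LinearMap.ker f) - chiOn r S := by
  have e1 := finrank_map_eig h2 (ε := -1) (η := 1) (by simp) (by simp) hS hr f
    (by simpa using hf)
  have e2 := finrank_map_eig h2 (ε := -1) (η := -1) (by simp) (by simp) hS hr f
    (by simpa using hf)
  rw [mul_one] at e1
  rw [neg_one_mul, neg_neg] at e2
  unfold chiOn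
  omega

/-- `f` commutes with the involutions, whole space -/
theorem chiOn_range [FiniteDimensional k A] (h2 : (2 : k) ≠ 0) {r : A →ₗ[k] A}
    {t : B →ₗ[k] B} (hr : ∀ x, r (r x) = x)
    (f : A →ₗ[k] B) (hf : ∀ x, t (f x) = f (r x)) :
    chiOn t (LinearMap.range f) = chi r - chiOn r (LinearMap.ker f) := by
  have := chiOn_map h2 (S := ⊤) (fun _ _ => trivial) hr f hf
  rwa [Submodule.map_top, top_inf_eq, chiOn_top] at this

/-- `f` anticommutes with the involutions, whole space -/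
theorem chiOn_range_neg [FiniteDimensional k A] (h2 : (2 : k) ≠ 0) {r : A →ₗ[k] A}
    {t : B →ₗ[k] B} (hr : ∀ x, r (r x) = x)
    (f : A →ₗ[k] B) (hf : ∀ x, t (f x) = - f (r x)) :
    chiOn t (LinearMap.range f) = chiOn r (LinearMap.ker f) - chi r := by
  have := chiOn_map_neg h2 (S := ⊤) (fun _ _ => trivial) hr f hf
  rwa [Submodule.map_top, top_inf_eq, chiOn_top] at this

/-- the trace on a line -/
theorem chiOn_span_singleton (h2 : (2 : k) ≠ 0) {r : A →ₗ[k] A} {x : A} (hx : x ≠ 0)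
    {ε : ℤ} (hε : ε = 1 ∨ ε = -1) (h : r x = (ε : k) • x) :
    chiOn r (Submodule.span k {x}) = ε := by
  have key : ∀ η : k, η * η = 1 → ∀ ε' : k, r x = ε' • x →
      (ε' = η → (Submodule.span k {x} ⊓ eig r η : Submodule k A) = Submodule.span k {x}) ∧
      (ε' ≠ η → (Submodule.span k {x} ⊓ eig r η : Submodule k A) = ⊥) := by
    intro η hη ε' hε'
    constructor
    · rintro rfl
      rw [inf_eq_left, Submodule.span_singleton_le_iff_mem, mem_eig]
      exact hε'
    · intro hne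
      rw [eq_bot_iff]
      rintro y ⟨h1, h3⟩
      obtain ⟨a, rfl⟩ := Submodule.mem_span_singleton.1 h1
      have h4 : r (a • x) = η • (a • x) := mem_eig.1 h3
      rw [map_smul, hε', smul_smul, smul_smul, ← sub_eq_zero, ← sub_smul, smul_eq_zero] at h4
      rcases h4 with h4 | h4
      · have : a * (ε' - η) = 0 := by rw [← h4]; ring
        rcases mul_eq_zero.1 this with h5 | h5
        · simp [h5]
        · exact absurd (sub_eq_zero.1 h5) hne
      · exact absurd h4 hx
  have hne : (1 : k) ≠ -1 := by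
    intro h
    apply h2
    have : (1 : k) + 1 = 0 := by
      nth_rewrite 1 [h]
      ring
    rw [← one_add_one_eq_two]
    exact this
  unfold chiOn
  rcases hε with rfl | rfl
  · rw [(key 1 (by simp) 1 (by simpa using h)).1 rfl, (key (-1) (by simp) 1 (by simpa using h)).2 hne,
      finrank_span_singleton hx]
    simp
  · rw [(key 1 (by simp) (-1) (by simpa using h)).2 hne.symm,
      (key (-1) (by simp) (-1) (by simpa using h)).1 rfl, finrank_span_singleton hx]
    simp

end One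

/-! ## The torsion submodule -/

section Tor

variable {k : Type*} [Field k] {F : ℕ → Type*} [∀ n, AddCommGroup (F n)] [∀ n, Module k (F n)]

/-- the kernel of `u ^ N` -/
def torN (u : ∀ n, F n →ₗ[k] F (n + 2)) : ℕ → ∀ n, Submodule k (F n)
  | 0, _ => ⊥
  | N + 1, n => (torN u N (n + 2)).comap (u n)

theorem torN_le_succ (u : ∀ n, F n →ₗ[k] F (n + 2)) (N n : ℕ) :
    torN u N n ≤ torN u (N + 1) n := by
  induction N generalizing n with
  | zero => exact bot_le
  | succ N ih => exact Submodule.comap_mono (ih (n + 2))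

theorem torN_mono (u : ∀ n, F n →ₗ[k] F (n + 2)) (n : ℕ) : Monotone fun N => torN u N n :=
  monotone_nat_of_le_succ fun N => torN_le_succ u N n

/-- the `u`-torsion -/
def tor (u : ∀ n, F n →ₗ[k] F (n + 2)) (n : ℕ) : Submodule k (F n) := ⨆ N, torN u N n

theorem mem_tor {u : ∀ n, F n →ₗ[k] F (n + 2)} {n : ℕ} {x : F n} :
    x ∈ tor u n ↔ ∃ N, x ∈ torN u N n :=
  Submodule.mem_iSup_of_directed _ (torN_mono u n).directed_le

theorem u_mem_tor {u : ∀ n, F n →ₗ[k] F (n + 2)} {n : ℕ} {x : F n} :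
    u n x ∈ tor u (n + 2) ↔ x ∈ tor u n := by
  rw [mem_tor, mem_tor]
  constructor
  · rintro ⟨N, hN⟩
    exact ⟨N + 1, hN⟩
  · rintro ⟨N, hN⟩
    exact ⟨N, torN_le_succ u N n hN⟩

theorem ker_le_tor (u : ∀ n, F n →ₗ[k] F (n + 2)) (n : ℕ) : LinearMap.ker (u n) ≤ tor u n := by
  intro x hx
  rw [← u_mem_tor, LinearMap.mem_ker.1 hx]
  exact Submodule.zero_mem _

/-- `uF ∩ T = uT` -/
theorem tor_inf_range (u : ∀ n, F n →ₗ[k] F (n + 2)) (n : ℕ) :
    tor u (n + 2) ⊓ LinearMap.range (u n) = (tor u n).map (u n) := by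
  ext x
  constructor
  · rintro ⟨h1, y, rfl⟩
    exact ⟨y, u_mem_tor.1 h1, rfl⟩
  · rintro ⟨y, hy, rfl⟩
    exact ⟨u_mem_tor.2 hy, y, rfl⟩

/-- maps commuting with `u` up to sign preserve the torsion -/
theorem map_mem_tor {G : ℕ → Type*} [∀ n, AddCommGroup (G n)] [∀ n, Module k (G n)]
    {u : ∀ n, F n →ₗ[k] F (n + 2)} {w : ∀ n, G n →ₗ[k] G (n + 2)} (f : ∀ n, F n →ₗ[k] G n)
    (hf : ∀ n x, w n (f n x) = f (n + 2) (u n x) ∨ w n (f n x) = - f (n + 2) (u n x)) {n : ℕ}
    {x : F n} (hx : x ∈ tor u n) : f n x ∈ tor w n := by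
  obtain ⟨N, hN⟩ := mem_tor.1 hx
  refine mem_tor.2 ⟨N, ?_⟩
  clear hx
  induction N generalizing n with
  | zero =>
    have : x = 0 := hN
    rw [this, map_zero]
    exact Submodule.zero_mem _
  | succ N ih =>
    have h1 := ih (n := n + 2) (x := u n x) hN
    show w n (f n x) ∈ torN w N (n + 2)
    rcases hf n x with h | h
    · rw [h]; exact h1
    · rw [h]; exact Submodule.neg_mem _ h1

end Tor

/-! ## The trace identity -/

section Level

variable {k : Type*} [Field k] {F E : ℕ → Type*} [∀ n, AddCommGroup (F n)] [∀ n, Module k (F n)]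
  [∀ n, AddCommGroup (E n)] [∀ n, Module k (E n)]

/-- involutions on the Gysin sequence: they commute with `π` and anticommute with `u` and `d` -/
structure Inv (S : USeq k F E) where
  rF : ∀ n, F n →ₗ[k] F n
  rE : ∀ n, E n →ₗ[k] E n
  rF2 : ∀ n x, rF n (rF n x) = x
  rE2 : ∀ n x, rE n (rE n x) = x
  hπ : ∀ n x, rE n (S.π n x) = S.π n (rF n x)
  hu : ∀ n x, rF (n + 2) (S.u n x) = - S.u n (rF n x)
  hd : ∀ n x, rF n (S.d n x) = - S.d n (rE (n + 1) x)

variable {S : USeq k F E} (I : Inv S)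

theorem Inv.tor_mem (n : ℕ) {x : F n} (hx : x ∈ tor S.u n) : I.rF n x ∈ tor S.u n := by
  refine map_mem_tor (u := S.u) (w := S.u) I.rF (fun n x => Or.inr ?_) hx
  rw [I.hu, neg_neg]

/-- trace of the free part in degree `n` minus trace of the torsion in degree `n + 1` -/
noncomputable def Inv.Dd (n : ℕ) : ℤ :=
  chi (I.rF n) - chiOn (I.rF n) (tor S.u n) - chiOn (I.rF (n + 1)) (tor S.u (n + 1))

/-- the image of the torsion in `E`, i.e. `T / u T` -/
def torE (S : USeq k F E) (n : ℕ) : Submodule k (E n) := (tor S.u n).map (S.π n)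

theorem Inv.chi_E [∀ n, FiniteDimensional k (F n)] [∀ n, FiniteDimensional k (E n)]
    (h2 : (2 : k) ≠ 0) (n : ℕ) :
    chi (I.rE (n + 2)) = chi (I.rF (n + 2)) + chi (I.rF n) -
      chiOn (I.rF n) (LinearMap.ker (S.u n)) -
      chiOn (I.rF (n + 1)) (LinearMap.ker (S.u (n + 1))) := by
  have e1 := chiOn_range h2 (I.rF2 (n + 2)) (S.π (n + 2)) (I.hπ (n + 2))
  have e2 := chiOn_range_neg h2 (I.rF2 n) (S.u n) (I.hu n)
  have e3 := chiOn_range_neg h2 (I.rE2 (n + 2)) (S.d (n + 1)) (I.hd (n + 1))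
  rw [← LinearMap.exact_iff.1 (S.ex2 (n + 1)), LinearMap.exact_iff.1 (S.ex1 (n + 1))] at e3
  rw [LinearMap.exact_iff.1 (S.ex3 n)] at e1
  linarith

theorem Inv.chi_ker [∀ n, FiniteDimensional k (F n)]
    (h2 : (2 : k) ≠ 0) (n : ℕ) :
    chiOn (I.rF n) (LinearMap.ker (S.u n)) = chiOn (I.rF n) (tor S.u n) +
      chiOn (I.rF (n + 2)) (tor S.u (n + 2)) - chiOn (I.rE (n + 2)) (torE S (n + 2)) := by
  have e1 := chiOn_map_neg h2 (S := tor S.u n) (fun x hx => I.tor_mem n hx) (I.rF2 n)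
    (S.u n) (I.hu n)
  have e2 := chiOn_map h2 (S := tor S.u (n + 2)) (fun x hx => I.tor_mem (n + 2) hx)
    (I.rF2 (n + 2)) (S.π (n + 2)) (I.hπ (n + 2))
  rw [inf_eq_right.2 (ker_le_tor S.u n)] at e1
  rw [LinearMap.exact_iff.1 (S.ex3 n), tor_inf_range] at e2
  unfold torE
  linarith

/-- **T3 (a)**: the trace identity at one level -/
theorem Inv.chi_E_eq [∀ n, FiniteDimensional k (F n)] [∀ n, FiniteDimensional k (E n)]
    (h2 : (2 : k) ≠ 0) (n : ℕ) :
    chi (I.rE (n + 2)) = I.Dd (n + 2) + I.Dd n + chiOn (I.rE (n + 2)) (torE S (n + 2)) +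
      chiOn (I.rE (n + 3)) (torE S (n + 3)) := by
  have e1 := I.chi_E h2 n
  have e2 := I.chi_ker h2 n
  have e3 := I.chi_ker h2 (n + 1)
  unfold Inv.Dd
  linarith

end Level

/-! ## Crossing a critical level -/

section Cross

variable {k : Type*} [Field k]
  {F E : ℕ → Type*} [∀ n, AddCommGroup (F n)] [∀ n, Module k (F n)]
  [∀ n, AddCommGroup (E n)] [∀ n, Module k (E n)]
  {F' E' : ℕ → Type*} [∀ n, AddCommGroup (F' n)] [∀ n, Module k (F' n)]
  [∀ n, AddCommGroup (E' n)] [∀ n, Module k (E' n)]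
  {R : ℕ → Type*} [∀ n, AddCommGroup (R n)] [∀ n, Module k (R n)]

/-- **T3 (b)**: the long exact sequence `R n → F n → F' n → R (n + 1)` of the pair, with traces
zero on the relative groups; the restriction is onto on the torsion and injective modulo the
torsion. Then `Dd` does not change. -/
theorem Dd_eq [∀ n, FiniteDimensional k (F n)] [∀ n, FiniteDimensional k (F' n)]
    [∀ n, FiniteDimensional k (R n)]
    {S : USeq k F E} {S' : USeq k F' E'} (I : Inv S) (I' : Inv S')
    (h2 : (2 : k) ≠ 0) (rR : ∀ n, R n →ₗ[k] R n) (rR2 : ∀ n x, rR n (rR n x) = x)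
    (j : ∀ n, R n →ₗ[k] F n) (res : ∀ n, F n →ₗ[k] F' n) (δ : ∀ n, F' n →ₗ[k] R (n + 1))
    (hj : ∀ n x, I.rF n (j n x) = j n (rR n x))
    (hres : ∀ n x, I'.rF n (res n x) = res n (I.rF n x))
    (hδ : ∀ n x, rR (n + 1) (δ n x) = δ n (I'.rF n x))
    (hu : ∀ n x, S'.u n (res n x) = res (n + 2) (S.u n x))
    (ex1 : ∀ n, Function.Exact (j n) (res n)) (ex2 : ∀ n, Function.Exact (res n) (δ n))
    (ex3 : ∀ n, Function.Exact (δ n) (j (n + 1)))
    (hR : ∀ n, chi (rR n) = 0)
    (hker : ∀ n x, res n x = 0 → x ∈ tor S.u n)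
    (hsurj : ∀ n, ∀ y ∈ tor S'.u n, ∃ x ∈ tor S.u n, res n x = y) (n : ℕ) :
    I.Dd n = I'.Dd n := by
  have e1 := chiOn_range h2 (rR2 (n + 1)) (j (n + 1)) (hj (n + 1))
  have e2 := chiOn_range h2 (I'.rF2 n) (δ n) (hδ n)
  have e3 := chiOn_range h2 (I.rF2 n) (res n) (hres n)
  rw [LinearMap.exact_iff.1 (ex2 n)] at e2
  rw [LinearMap.exact_iff.1 (ex3 n), ← LinearMap.exact_iff.1 (ex1 (n + 1)), hR (n + 1)] at e1
  have e4 : ∀ m, chiOn (I'.rF m) (tor S'.u m) =
      chiOn (I.rF m) (tor S.u m) - chiOn (I.rF m) (LinearMap.ker (res m)) := by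
    intro m
    have e5 := chiOn_map h2 (S := tor S.u m) (fun x hx => I.tor_mem m hx) (I.rF2 m) (res m)
      (hres m)
    have e6 : (tor S.u m).map (res m) = tor S'.u m := by
      apply le_antisymm
      · rintro _ ⟨x, hx, rfl⟩
        exact map_mem_tor (u := S.u) (w := S'.u) res (fun n x => Or.inl (hu n x)) hx
      · intro y hy
        obtain ⟨x, hx, rfl⟩ := hsurj m y hy
        exact ⟨x, hx, rfl⟩
    have e7 : tor S.u m ⊓ LinearMap.ker (res m) = LinearMap.ker (res m) :=
      inf_eq_right.2 fun x hx => hker m x (LinearMap.mem_ker.1 hx)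
    rwa [e6, e7] at e5
  have e8 := e4 n
  have e9 := e4 (n + 1)
  unfold Inv.Dd
  linarith

/-- bijective restrictions: `Dd` does not change -/
theorem Dd_eq_of_bij [∀ n, FiniteDimensional k (F n)]
    {S : USeq k F E} {S' : USeq k F' E'} (I : Inv S) (I' : Inv S')
    (h2 : (2 : k) ≠ 0) (res : ∀ n, F n →ₗ[k] F' n)
    (hres : ∀ n x, I'.rF n (res n x) = res n (I.rF n x))
    (hu : ∀ n x, S'.u n (res n x) = res (n + 2) (S.u n x))
    (hb : ∀ n, Function.Bijective (res n)) (n : ℕ) : I.Dd n = I'.Dd n := by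
  have e0 : ∀ m, LinearMap.ker (res m) = ⊥ := fun m => LinearMap.ker_eq_bot.2 (hb m).1
  have e3 := chiOn_range h2 (I.rF2 n) (res n) (hres n)
  rw [e0, chiOn_bot, LinearMap.range_eq_top.2 (hb n).2, chiOn_top, sub_zero] at e3
  have e4 : ∀ m, chiOn (I'.rF m) (tor S'.u m) = chiOn (I.rF m) (tor S.u m) := by
    intro m
    have e5 := chiOn_map h2 (S := tor S.u m) (fun x hx => I.tor_mem m hx) (I.rF2 m) (res m)
      (hres m)
    have key : ∀ N m (x : F m), res m x ∈ torN S'.u N m → x ∈ torN S.u N m := by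
      intro N
      induction N with
      | zero =>
        intro m x hx
        have : res m x = 0 := hx
        exact (map_eq_zero_iff _ (hb m).1).1 this
      | succ N ih =>
        intro m x hx
        apply ih
        rw [← hu]
        exact hx
    have e6 : (tor S.u m).map (res m) = tor S'.u m := by
      apply le_antisymm
      · rintro _ ⟨x, hx, rfl⟩
        exact map_mem_tor (u := S.u) (w := S'.u) res (fun n x => Or.inl (hu n x)) hx
      · intro y hy
        obtain ⟨x, rfl⟩ := (hb m).2 y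
        obtain ⟨N, hN⟩ := mem_tor.1 hy
        exact ⟨x, mem_tor.2 ⟨N, key N m x hN⟩, rfl⟩
    rwa [e6, e0, inf_bot_eq, chiOn_bot, sub_zero] at e5
  have e8 := e4 n
  have e9 := e4 (n + 1)
  unfold Inv.Dd
  linarith

end Cross

end Vale.Agent.P216.Tight923
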